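import Vale.Agent.P141.H490.Fin4
import Vale.Agent.P141.H530.FinalR
import Vale.Agent.P141.H571.Top2

/-!
# P141: the final statement at every target exponent `r < 2`

`FinalAll`: the limit defining `T` exists; at every Hölder tuple with `2 < p_i ≤ ∞` and `r < 2`
(no lower bound on `r`, so `2 / 3 < r < 2`) all truncations of `T` are bounded with one constant,
and `T` is bounded.

* `truncLe_of_rootQ2`: the range `r ≤ 1` from `∀ n, RootQ 2 n P`;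
* `finalAll_of_rootQ2`, `finalAll_of_levelSys2`, `finalAll_of_steps`, `finalAll_of_ceOut`,
  `finalAll_of_cf`, `finalAll_of_gen2`: the same chain as for `H490.FinalStmt`.
-/

namespace Vale.Agent.P141.H397

open MeasureTheory Set Filter Topology
open scoped ENNReal SchwartzMap
open Vale.Agent.P141 Vale.Agent.P141.PL.H620 Vale.Agent.P141.H337 Vale.Agent.P141.H347

/-- **all truncations, one constant**, at every tuple with `2 < p_i` and `r ≤ 1` -/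
theorem truncLe_of_rootQ2 {P : ℝ} (hP : 0 ≤ P) (H : ∀ n, RootQ 2 n P) {p₁ p₂ p₃ r : ℝ≥0∞}
    (h : IsHolderTuple p₁ p₂ p₃ r) (h₁ : 2 < p₁) (h₂ : 2 < p₂) (h₃ : 2 < p₃) (hr : r ≤ 1) :
    ∃ C : ℝ, ∀ f₁ f₂ f₃ : 𝓢(ℝ, ℂ), ∀ ε R : ℝ, 0 < ε → ε < R →
      eLpNorm (truncTHT f₁ f₂ f₃ ε R) r volume ≤
        ENNReal.ofReal C * eLpNorm f₁ p₁ volume * eLpNorm f₂ p₂ volume *
          eLpNorm f₃ p₃ volume := by
  have key : ∀ q : ℝ, 2 < q → ∃ C : ℝ, 0 ≤ C ∧ ∀ n : ℕ, 1 ≤ n →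
      H530.RootS q n (C * (1 + Real.log (1 + n)) ^ 0) := by
    intro q hq
    obtain ⟨C, hC, hS⟩ := H530.rootS_of_rootQ (q := 2) (p := q) (by norm_num) hq hq
    refine ⟨C * P + 2 ^ 10, by positivity, fun n _ => ?_⟩
    rw [pow_zero, mul_one]
    exact hS n P hP (H n)
  obtain ⟨C, hC⟩ := H530.final_le_one key h h₁ h₂ h₃ hr
  refine ⟨C, fun f₁ f₂ f₃ ε R hε hR => ?_⟩
  have h1 := hC f₁ f₂ f₃ ε R hε hR
  rwa [pow_zero, mul_one] at h1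

/-- **all truncations, one constant**, at every tuple with `2 < p_i` and `r < 2` -/
theorem truncAll_of_rootQ2 {P : ℝ} (hP : 0 ≤ P) (H : ∀ n, RootQ 2 n P) {p₁ p₂ p₃ r : ℝ≥0∞}
    (h : IsHolderTuple p₁ p₂ p₃ r) (h₁ : 2 < p₁) (h₂ : 2 < p₂) (h₃ : 2 < p₃) (hr : r < 2) :
    ∃ C : ℝ, ∀ f₁ f₂ f₃ : 𝓢(ℝ, ℂ), ∀ ε R : ℝ, 0 < ε → ε < R →
      eLpNorm (truncTHT f₁ f₂ f₃ ε R) r volume ≤
        ENNReal.ofReal C * eLpNorm f₁ p₁ volume * eLpNorm f₂ p₂ volume *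
          eLpNorm f₃ p₃ volume := by
  rcases le_total r 1 with h1 | h1
  · exact truncLe_of_rootQ2 hP H h h₁ h₂ h₃ h1
  · exact H490.trunc_of_rootQ2 hP H h h₁ h₂ h₃ h1 hr

/-- **The final statement, every `r < 2`.** -/
def FinalAll : Prop :=
  (∀ (f₁ f₂ f₃ : 𝓢(ℝ, ℂ)) (x : ℝ),
    Tendsto (fun q : ℝ × ℝ => truncTHT f₁ f₂ f₃ q.1 q.2 x) (𝓝[>] (0 : ℝ) ×ˢ atTop)
      (𝓝 (THT f₁ f₂ f₃ x))) ∧
  (∀ p₁ p₂ p₃ r : ℝ≥0∞, IsHolderTuple p₁ p₂ p₃ r → 2 < p₁ → 2 < p₂ → 2 < p₃ → r < 2 →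
    BoundedAt p₁ p₂ p₃ r) ∧
  (∀ p₁ p₂ p₃ r : ℝ≥0∞, IsHolderTuple p₁ p₂ p₃ r → 2 < p₁ → 2 < p₂ → 2 < p₃ → r < 2 →
    ∃ C : ℝ, ∀ f₁ f₂ f₃ : 𝓢(ℝ, ℂ), ∀ ε R : ℝ, 0 < ε → ε < R →
      eLpNorm (truncTHT f₁ f₂ f₃ ε R) r volume ≤
        ENNReal.ofReal C * eLpNorm f₁ p₁ volume * eLpNorm f₂ p₂ volume *
          eLpNorm f₃ p₃ volume) ∧
  BoundedAt 4 4 4 (4 / 3)

theorem finalAll_of_rootQ2 {P : ℝ} (hP : 0 ≤ P) (H : ∀ n, RootQ 2 n P) : FinalAll := by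
  have key : ∀ p₁ p₂ p₃ r : ℝ≥0∞, IsHolderTuple p₁ p₂ p₃ r → 2 < p₁ → 2 < p₂ → 2 < p₃ →
      r < 2 → BoundedAt p₁ p₂ p₃ r := by
    intro p₁ p₂ p₃ r h h₁ h₂ h₃ hr2
    obtain ⟨C, hC⟩ := truncAll_of_rootQ2 hP H h h₁ h₂ h₃ hr2
    exact ⟨ENNReal.ofReal C, ENNReal.ofReal_lt_top, fun f₁ f₂ f₃ =>
      tht_le' f₁ f₂ f₃ fun ε R hε hR => hC f₁ f₂ f₃ ε R hε hR⟩
  refine ⟨(H490.final_of_rootQ2 hP H).1, key, fun p₁ p₂ p₃ r h h₁ h₂ h₃ hr2 =>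
    truncAll_of_rootQ2 hP H h h₁ h₂ h₃ hr2, (H490.final_of_rootQ2 hP H).2.2.2⟩

/-- the statement for `r ≥ 1` is contained -/
theorem FinalAll.stmt (h : FinalAll) : H490.FinalStmt :=
  ⟨h.1, fun p₁ p₂ p₃ r hp h₁ h₂ h₃ _ hr2 => h.2.1 p₁ p₂ p₃ r hp h₁ h₂ h₃ hr2,
    fun p₁ p₂ p₃ r hp h₁ h₂ h₃ _ hr2 => h.2.2.1 p₁ p₂ p₃ r hp h₁ h₂ h₃ hr2, h.2.2.2⟩

theorem finalAll_of_levelSys2 (h : LevelSys2) : FinalAll := by
  obtain ⟨P, hP, H⟩ := root2_of_levelSys2 h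
  exact finalAll_of_rootQ2 hP fun n => root2_iff.1 (H n)

/-- **from the steps**, (E) being proved -/
theorem finalAll_of_steps (h : H444.StepHyp) : FinalAll :=
  finalAll_of_levelSys2 (H444.levelSys2_of_stepHyp (H48.Cen_nonneg (ε := 1 / 4) (by norm_num))
    (H48.enOut (ε := 1 / 4) (by norm_num) le_rfl) h)

theorem finalAll_of_ceOut (h : H501.CEOut) : FinalAll :=
  finalAll_of_steps (PL.H855.stepHyp_of_stepIn (H501.stepIn_of_ce_end h H585M.endStmT))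

theorem finalAll_of_cf (h : H501.CFOut) : FinalAll :=
  finalAll_of_ceOut (H501.ceOut_of_cf h)

theorem finalAll_of_gen2 (h : H927.GenOut2) : FinalAll :=
  finalAll_of_cf (H927.cfOut_of_gen2 h)

end Vale.Agent.P141.H397
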