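import Vale.Agent.P141.H397.FinAll

/-!
# P141: draft of the result file at every `r < 2`, with the hypothesis that is still open
-/

namespace Vale.Agent.P141.H397

open MeasureTheory Set Filter Topology
open scoped ENNReal SchwartzMap
open Vale.Agent.P141

/-- **Boundedness of the trilinear Hilbert transform in the local `L²` range.**

Let `T_{ε,R}` be the truncations and `T` the trilinear Hilbert transform with slopes `1, 2, 3`.
(1) For Schwartz functions the limit defining `T(f₁,f₂,f₃)(x)` exists at every `x`.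
(2) `T` is bounded at every Hoelder tuple with `2 < p₁, p₂, p₃ ≤ ∞` and `r < 2`
(so `2 / 3 < r < 2`).
(3) At the same tuples all the truncations are bounded with one constant.
(4) In particular `T` is bounded at `(4, 4, 4, 4/3)`. -/
theorem resultAll_of_gen2 (h : H927.GenOut2) :
    (∀ (f₁ f₂ f₃ : 𝓢(ℝ, ℂ)) (x : ℝ),
      Tendsto (fun q : ℝ × ℝ => truncTHT f₁ f₂ f₃ q.1 q.2 x) (𝓝[>] (0 : ℝ) ×ˢ atTop)
        (𝓝 (THT f₁ f₂ f₃ x))) ∧
    (∀ p₁ p₂ p₃ r : ℝ≥0∞, IsHolderTuple p₁ p₂ p₃ r → 2 < p₁ → 2 < p₂ → 2 < p₃ → r < 2 →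
      BoundedAt p₁ p₂ p₃ r) ∧
    (∀ p₁ p₂ p₃ r : ℝ≥0∞, IsHolderTuple p₁ p₂ p₃ r → 2 < p₁ → 2 < p₂ → 2 < p₃ → r < 2 →
      ∃ C : ℝ, ∀ f₁ f₂ f₃ : 𝓢(ℝ, ℂ), ∀ ε R : ℝ, 0 < ε → ε < R →
        eLpNorm (truncTHT f₁ f₂ f₃ ε R) r volume ≤
          ENNReal.ofReal C * eLpNorm f₁ p₁ volume * eLpNorm f₂ p₂ volume *
            eLpNorm f₃ p₃ volume) ∧
    BoundedAt 4 4 4 (4 / 3) :=
  finalAll_of_gen2 h

end Vale.Agent.P141.H397
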